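import Vale.Agent.P078.Local.Chain.Depth
import Vale.Agent.P078.Local.Finish.Main
import Vale.Agent.P078.Local.Moves.Main
import Vale.Agent.P078.Local.Params.Main
import Vale.Agent.P078.Local.Start.Main

/-!
# The finite-range rule with `C/ε²` colours paves at every site (`Iface.Goal`)
-/

noncomputable section

namespace Vale.Agent.P078.Local.Final

open Finset

universe u

/-- The number of colours. -/
def colours (ε : ℝ) : ℕ := ⌈25600 / ε ^ 2⌉₊

theorem colours_spec {ε : ℝ} (hε : 0 < ε) (hε1 : ε ≤ 1) :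
    25600 ≤ colours ε ∧ (colours ε : ℝ) ≤ 25601 / ε ^ 2 ∧ 160 / Real.sqrt (colours ε) ≤ ε := by
  have h2 : ε ^ 2 ≤ 1 := pow_le_one₀ hε.le hε1
  have hge : 25600 / ε ^ 2 ≤ (colours ε : ℝ) := Nat.le_ceil _
  have hbig : (25600 : ℝ) ≤ 25600 / ε ^ 2 := le_div_self (by norm_num) (by positivity) h2
  refine ⟨?_, ?_, ?_⟩
  · exact_mod_cast hbig.trans hge
  · refine (Nat.ceil_lt_add_one (by positivity)).le.trans ?_
    have : (1 : ℝ) ≤ 1 / ε ^ 2 := le_div_self zero_le_one (by positivity) h2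
    calc 25600 / ε ^ 2 + 1 ≤ 25600 / ε ^ 2 + 1 / ε ^ 2 := add_le_add le_rfl this
      _ = 25601 / ε ^ 2 := by ring
  · have hs : 160 / ε ≤ Real.sqrt (colours ε) := by
      refine Real.le_sqrt_of_sq_le ?_
      calc (160 / ε) ^ 2 = 25600 / ε ^ 2 := by ring
        _ ≤ _ := hge
    have hs0 : 0 < Real.sqrt (colours ε) := lt_of_lt_of_le (by positivity) hs
    rw [div_le_iff₀ hε] at hs
    rw [div_le_iff₀ hs0]
    linarith

/-- The rule fails at `o` with probability at most that of a bad history or an unresolved site in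
the ball. -/
theorem prob_bad_le {κ : Type u} [Fintype κ] [DecidableEq κ] {p : Par} (hp : p.Ok) (N : Net κ p.D)
    (o : κ) {m : ℕ} (hm : m ≤ p.rt) (hstart : ∀ u, Iface.StartOK p N u) :
    prob (fun t : Seeds κ p × Coins κ p =>
        ¬ ∀ (c : Fin p.r) (U : Finset κ), U ⊆ N.ball o m →
          (∀ u ∈ U, IsColour p N t.1 t.2 u c) → OpLe U N.x (20 * p.t0))
      ≤ p.failG + p.vol m * (p.failG + p.failU) := by
  classical
  have : Nonempty (Seeds κ p) := ⟨fun _ _ => (⟨0, hp.P_pos⟩, Equiv.refl _)⟩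
  have hbad : ∀ u, prob (fun t : Seeds κ p × Coins κ p => ¬ GoodTo p N t.1 t.2 u p.Nph)
      ≤ p.failG := by
    intro u
    rw [prob_prod]
    exact (avg_mono fun ω => Chain.depthStmt hp N ω u (hstart u)).trans_eq (avg_const _)
  have hfail : 0 ≤ p.failG + p.failU :=
    add_nonneg ((prob_nonneg _).trans (hbad o))
      ((prob_nonneg _).trans (stmtMoves_of Chain.chainStmt hp N o (hstart o)))
  refine le_trans (prob_mono fun t ht => ?_)
    (b := prob (fun t : Seeds κ p × Coins κ p => ¬ GoodTo p N t.1 t.2 o p.Nph ∨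
      ∃ u ∈ N.ball o m, ¬ GoodTo p N t.1 t.2 u p.Nph ∨
        (GoodTo p N t.1 t.2 u p.Nph ∧ 8 ≤ (live p (stateAt p N t.1 t.2 p.Nph).h u).card))) ?_
  · by_contra hno
    simp only [not_or, not_exists, not_and, not_le, not_not] at hno
    exact ht fun c U hU hcol => Finish.finishStmt hp N t.1 t.2 o m (hstart o) hm hno.1
      (fun u hu => (hno.2 u hu).2 (hno.2 u hu).1) c U hU hcol
  refine (prob_or_le _ _).trans (add_le_add (hbad o) ((prob_exists_le _ _).trans ?_))
  refine (sum_le_card_nsmul _ _ (p.failG + p.failU) fun u _ => (prob_or_le _ _).trans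
    (add_le_add (hbad u) (stmtMoves_of Chain.chainStmt hp N u (hstart u)))).trans ?_
  rw [nsmul_eq_mul]
  exact mul_le_mul_of_nonneg_right (N.card_ball_le_vol o m) hfail

/-- `Iface.Goal` with also `1/ε² ≤ r`. -/
theorem goal_lb : ∃ C : ℝ, 0 < C ∧ ∀ ε : ℝ, 0 < ε → ε ≤ 1 →
    ∃ r : ℕ, 0 < r ∧ 1 / ε ^ 2 ≤ r ∧ (r : ℝ) ≤ C / ε ^ 2 ∧
    ∀ (D m : ℕ) (δ : ℝ), 0 < δ → ∃ p : Par, p.D = D ∧ p.r = r ∧ p.Ok ∧
      ∀ (κ : Type u) [Fintype κ] [DecidableEq κ] (N : Net κ p.D) (o : κ),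
        prob (fun t : Seeds κ p × Coins κ p =>
          ¬ ∀ (c : Fin p.r) (U : Finset κ), U ⊆ N.ball o m →
            (∀ u ∈ U, IsColour p N t.1 t.2 u c) → OpLe U N.x ε) ≤ δ := by
  refine ⟨25601, by norm_num, fun ε hε hε1 => ?_⟩
  obtain ⟨hr, hrC, hrε⟩ := colours_spec hε hε1
  refine ⟨colours ε, by omega, ?_, hrC, fun D m δ hδ => ?_⟩
  · exact (div_le_div_of_nonneg_right (by norm_num : (1 : ℝ) ≤ 25600) (sq_nonneg ε)).trans
      (Nat.le_ceil _)
  set r := colours ε with hrdef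
  have hsr : 160 ≤ Real.sqrt r := by
    refine Real.le_sqrt_of_sq_le ?_
    norm_num
    exact_mod_cast hr
  set t0 := 8 / Real.sqrt r with ht0
  have ht0pos : 0 < t0 := div_pos (by norm_num) (by linarith)
  have ht0le : t0 ≤ 1 / 4 := by
    rw [ht0, div_le_iff₀ (by linarith)]
    linarith
  set V := ((D : ℝ) + 2) ^ m with hV
  have hV1 : 1 ≤ V := one_le_pow₀ (by linarith [(Nat.cast_nonneg D : (0 : ℝ) ≤ D)])
  set d := δ / (8 * V) with hd
  have hdpos : 0 < d := by positivity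
  obtain ⟨p, hD, hpr, hpt, hpM, hp, hm, hT, hG, hP⟩ :=
    Params.paramsStmt D r m t0 (max 1 (2 ^ 14 / (t0 ^ 2 * d))) (1 / d) d (by omega) ht0pos ht0le
      (le_max_left _ _) (by positivity) hdpos
  refine ⟨p, hD, hpr, hp, fun κ _ _ N o => ?_⟩
  have hstart : ∀ u, Iface.StartOK p N u := by
    intro u s
    have h := startStmt p.r (by omega) p.D N s (N.ball u p.Lg)
    have e : (fun _ : κ => p.t0 / 2) = fun _ => 4 / Real.sqrt p.r := by
      funext _; rw [hpt, hpr, ht0]; ring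
    rw [e]
    exact h
  have h20 : 20 * p.t0 ≤ ε := by
    rw [hpt, ht0, show 20 * (8 / Real.sqrt r) = 160 / Real.sqrt r by ring]
    exact hrε
  refine le_trans ?_ ((prob_bad_le hp N o hm hstart).trans ?_ : _ ≤ δ)
  · exact prob_mono fun t ht hall => ht fun c U hU hcol v =>
      (hall c U hU hcol v).trans (mul_le_mul_of_nonneg_right h20
        (sum_nonneg fun l _ => Complex.normSq_nonneg _))
  have hU : p.failU ≤ 3 * d := by
    have h1 : 1 / (p.η * p.Nph) ≤ d := by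
      refine (one_div_le_one_div_of_le (by positivity) hT).trans ?_
      rw [one_div_one_div]
    have h2 : 2 ^ 14 / (p.t0 ^ 2 * p.M) ≤ d := by
      have hM : 2 ^ 14 / (t0 ^ 2 * d) ≤ p.M := hpM ▸ le_max_right _ _
      have hM0 : 0 < p.M := lt_of_lt_of_le one_pos hp.M_ge
      rw [hpt, div_le_iff₀ (by positivity)]
      rw [div_le_iff₀ (by positivity)] at hM
      linarith
    simp only [Par.failU]
    linarith
  have hvol : p.vol m = V := by rw [Par.vol, hD]
  rw [hvol]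
  have h3 : V * (p.failG + p.failU) ≤ V * (4 * d) :=
    mul_le_mul_of_nonneg_left (by linarith) (by linarith)
  have h4 : V * (4 * d) = δ / 2 := by rw [hd]; field_simp; ring
  have h5 : d ≤ δ / 8 := by
    rw [hd]
    exact div_le_div_of_nonneg_left hδ.le (by norm_num) (by linarith)
  linarith

/-- **`Iface.Goal`.** -/
theorem goal : Iface.Goal.{u} := by
  obtain ⟨C, hC, h⟩ := goal_lb.{u}
  refine ⟨C, hC, fun ε hε hε1 => ?_⟩
  obtain ⟨r, hr0, -, hrC, hr⟩ := h ε hε hε1
  exact ⟨r, hr0, hrC, hr⟩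

end Vale.Agent.P078.Local.Final
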